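import Vale.Agent.P011.One.QDefs
import Vale.Agent.P011.H897.Defs
import Vale.Agent.P011S.Defs2
import Mathlib.LinearAlgebra.Matrix.ConjTranspose

/-!
Notions for the statement on the anisotropic special unitary groups.
-/

open Module NumberField IsDedekindDomain
open scoped commutatorElement

namespace Vale.Agent.P011.One

open Vale.Agent.P011S

/-- The group `G(k) = SU(h)` of the hermitian form with Gram matrix `H` of size `m`: if `m ≥ 3`,
every normal subgroup is central or everything, and `G(k)` is perfect and simple modulo its centre;
in all cases there is no proper subgroup of finite index, and `G(k)` is the commutator subgroup of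
the unitary group. -/
def MPSimple {K D Ω : Type} [Field K] [DivisionRing D] [StarRing D] [Algebra K D] [Field Ω]
    [Algebra K Ω] {n m : ℕ} (f : D →ₐ[K] Matrix (Fin n) (Fin n) Ω)
    (H : Matrix (Fin m) (Fin m) D) : Prop :=
  (3 ≤ m → (∀ (N : Subgroup (SU f H)) [N.Normal], N ≤ Subgroup.center (SU f H) ∨ N = ⊤) ∧
    IsQuasisimple (SU f H)) ∧
  (∀ S : Subgroup (SU f H), S.index ≠ 0 → S = ⊤) ∧ SU f H = ⁅UH H, UH H⁆

/-- At some real place of the fixed field of the involution, the algebra with involution `D` of
degree `n` becomes the algebra of the complex matrices with the adjoint involution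
`X ↦ J Xᴴ J` of a hermitian form of signature `(n - 1, 1)`, `J = diag(1, …, 1, -1, 1, …, 1)`; so
the special unitary group of `D` becomes `SU(n - 1, 1)` at this place. -/
def HasSigOne (K D : Type) [Field K] [StarRing K] [DivisionRing D] [StarRing D] [Algebra K D]
    (n : ℕ) : Prop :=
  ∃ (σ : K →+* ℂ) (g : D →+* Matrix (Fin n) (Fin n) ℂ) (i₀ : Fin n),
    (∀ z, σ (star z) = star (σ z)) ∧
    (∀ x, g (algebraMap K D x) = Matrix.scalar (Fin n) (σ x)) ∧
    ∀ x, g (star x) = Matrix.diagonal (fun i => if i = i₀ then (-1 : ℂ) else 1) *
      (g x).conjTranspose * Matrix.diagonal (fun i => if i = i₀ then (-1 : ℂ) else 1)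

/-- The diagonal map `δ` from the group `G(k)` of the unitary elements of reduced norm one of `D` to
the product `H_A` of the groups `G(k_v)`, `v` in `A`, where `A` is the set of the finite places of
`k` at which `G` is anisotropic, has dense image, and every subgroup of finite index of `G(k)` is
the preimage of an open subgroup of `H_A`, which is normal if the given subgroup is normal. -/
def MPOpen (k : Type) {K D Ω : Type} [Field k] [NumberField k] [Field K] [DivisionRing D]
    [StarRing D] [Algebra k K] [Algebra k D] [Algebra K D] [Field Ω] [Algebra K Ω] {n : ℕ}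
    (f : D →ₐ[K] Matrix (Fin n) (Fin n) Ω) : Prop :=
  ∃ δ : SUD f →* HA D n (Adiv k K D), IsDiagonal δ ∧ DenseRange δ ∧
    ∀ N : Subgroup (SUD f), N.index ≠ 0 → IsOpenPreimage δ N

end Vale.Agent.P011.One
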